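/-
S0170 team project, WP-B (helper11): from a path of elementary moves to an admissible field.

Generic versions: the three inputs (statements of WP-E `effective_zero`, `effective_add` and of
WP-A7 `move_lemma`) are taken as hypotheses `EffZero`, `EffAdd`, `MoveLemma`, so this file is
complete and does not depend on the specification file.  The final assembly instantiates them.
-/
import Crest.Agent.Helper21.BoxFlow.Defs

set_option autoImplicit false
open scoped ContDiff
open Crest.AnalysisR.BoxFlow Crest.Agent.Helper21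

namespace Crest.Agent.Helper11

/-- The statement of WP-E `effective_zero`. -/
def EffZero : Prop := Effective (fun _ => 0)

/-- The statement of WP-E `effective_add`. -/
def EffAdd : Prop := ∀ (F G : Field), ContDiff ℝ ∞ F → ContDiff ℝ ∞ G →
    Effective F → Effective G → Effective (fun p => F p + G p)

/-- The statement of WP-A7 `move_lemma`. -/
def MoveLemma : Prop := ∀ (a : Fin 3) (α : ℚ) (w lo hi : Fin 3 → ℚ) (m t₀ t₁ : ℚ),
    w a = 0 → (∀ j, lo j < hi j) → 0 < m → t₀ < t₁ →
    ∃ (U : Field) (Ψ : ℝ → Sp → Sp),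
      ContDiff ℝ ∞ U ∧ HasCompactSupport U ∧ Effective U ∧
      (∀ p : ℝ × Sp, p.1 ≤ (t₀ : ℝ) ∨ (t₁ : ℝ) ≤ p.1 → U p = 0) ∧
      (∀ p : ℝ × Sp, spaceDiv U p = 0) ∧ IsFlowFrom t₀ U Ψ ∧
      (∀ x ∈ openCell lo hi, shearMap a α w x ∈ openCell lo hi →
        ∀ t : ℝ, (t₁ : ℝ) ≤ t → Ψ t x = shearMap a α w x) ∧
      (∀ x, x ∉ openCell (fun l => lo l - m) (fun l => hi l + m) → ∀ t, Ψ t x = x)

theorem isOpen_openCell (lo hi : Fin 3 → ℚ) : IsOpen (openCell lo hi) := by
  have : openCell lo hi = ⋂ j : Fin 3, {x : Sp | (lo j : ℝ) < x j ∧ x j < (hi j : ℝ)} := by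
    ext x; simp [openCell]
  rw [this]
  refine isOpen_iInter_of_finite fun j => ?_
  exact (isOpen_lt continuous_const (continuous_apply j)).inter
    (isOpen_lt (continuous_apply j) continuous_const)

theorem isClosed_closedCell (lo hi : Fin 3 → ℚ) : IsClosed (closedCell lo hi) := by
  have : closedCell lo hi = ⋂ j : Fin 3, {x : Sp | (lo j : ℝ) ≤ x j ∧ x j ≤ (hi j : ℝ)} := by
    ext x; simp [closedCell]
  rw [this]
  refine isClosed_iInter fun j => ?_
  exact (isClosed_le continuous_const (continuous_apply j)).inter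
    (isClosed_le (continuous_apply j) continuous_const)

theorem openCell_subset_closedCell (lo hi : Fin 3 → ℚ) : openCell lo hi ⊆ closedCell lo hi :=
  fun _ hx j => ⟨(hx j).1.le, (hx j).2.le⟩

theorem continuous_affFun (α : ℚ) (w : Fin 3 → ℚ) : Continuous (affFun α w) := by
  unfold affFun
  exact continuous_const.add
    (continuous_finsetSum _ fun j _ => continuous_const.mul (continuous_apply j))

theorem continuous_shearMap (d : Fin 3) (α : ℚ) (w : Fin 3 → ℚ) :
    Continuous (shearMap d α w) := by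
  unfold shearMap
  exact continuous_id.add ((continuous_affFun α w).smul continuous_const)

/-- `Reach` is monotone in the time. -/
theorem Reach.mono {n : ℕ} {a h : Fin n → Fin 3 → ℚ} {T T' : ℝ} {C : Config n}
    (hR : Reach a h T C) (hTT : T ≤ T') : Reach a h T' C := by
  obtain ⟨U, Φ, hU, hc, hE, hz, hd, hf, hO⟩ := hR
  refine ⟨U, Φ, hU, hc, hE, ?_, hd, hf, ?_⟩
  · intro p hp
    exact hz p (hp.imp id (fun h => hTT.trans h))
  · intro i
    obtain ⟨O, hO1, hO2, hO3⟩ := hO i
    exact ⟨O, hO1, hO2, fun x hx t ht => hO3 x hx t (hTT.trans ht)⟩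

section reach
variable {n : ℕ} (a h : Fin n → Fin 3 → ℚ)

theorem reach_refl_of (hz : EffZero) (T : ℝ) : Reach a h T (fun _ => id) := by
  refine ⟨fun _ => 0, fun _ x => x, contDiff_const, HasCompactSupport.zero, hz,
    fun _ _ => rfl, ?_, ⟨fun _ => rfl, fun t x => ?_⟩,
    fun i => ⟨Set.univ, isOpen_univ, Set.subset_univ _, fun x _ t _ => rfl⟩⟩
  · intro p
    simp [spaceDiv]
  · exact hasDerivAt_const t x

theorem reach_step_of (hmove : MoveLemma) (hadd : EffAdd)
    (C C' : Config n) (hC : ∀ i, Continuous (C i)) (T : ℝ) (hT : 1 / 4 ≤ T)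
    (t₀ t₁ : ℚ) (h0 : T < (t₀ : ℝ)) (h1 : t₀ < t₁)
    (hR : Reach a h T C) (hS : Step a h C C') : Reach a h (t₁ : ℝ) C' := by
  obtain ⟨U, Φ, hU, hUc, hUE, hUz, hUd, ⟨hΦ0, hΦd⟩, hO⟩ := hR
  obtain ⟨i, d, α, w, lo, hi, m, hw, hlh, hm, hin, hout, rfl⟩ := hS
  obtain ⟨V, Ψ, hV, hVc, hVE, hVz, hVd, ⟨hΨ0, hΨd⟩, hΨin, hΨout⟩ :=
    hmove d α w lo hi m t₀ t₁ hw hlh hm h1
  have h01 : (t₀ : ℝ) < (t₁ : ℝ) := by exact_mod_cast h1
  -- `Φ` is constant after time `T`
  have hconst : ∀ x s, T ≤ s → Φ s x = Φ T x := by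
    intro x s hs
    have hcont : ContinuousOn (fun s => Φ s x) (Set.Icc T s) :=
      fun r _ => (hΦd r x).continuousAt.continuousWithinAt
    have hder : ∀ r ∈ Set.Ico T s, HasDerivWithinAt (fun s => Φ s x) 0 (Set.Ici r) r := by
      intro r hr
      have h := (hΦd r x).hasDerivWithinAt (s := Set.Ici r)
      rwa [hUz (r, Φ r x) (Or.inr hr.1)] at h
    exact constant_of_has_deriv_right_zero hcont hder s ⟨hs, le_rfl⟩
  refine ⟨fun p => U p + V p, fun t x => Ψ t (Φ t x), hU.add hV, hUc.add hVc,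
    hadd U V hU hV hUE hVE, ?_, ?_, ⟨?_, ?_⟩, ?_⟩
  · -- zero outside `(1/4, t₁)`
    intro p hp
    show U p + V p = 0
    rcases hp with hp | hp
    · rw [hUz p (Or.inl hp), hVz p (Or.inl (by linarith)), add_zero]
    · rw [hUz p (Or.inr (by linarith)), hVz p (Or.inr hp), add_zero]
  · -- divergence
    intro p
    have hUdiff : DifferentiableAt ℝ U p := (hU.differentiable (by simp)).differentiableAt
    have hVdiff : DifferentiableAt ℝ V p := (hV.differentiable (by simp)).differentiableAt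
    have e1 := hUd p
    have e2 := hVd p
    simp only [spaceDiv] at e1 e2 ⊢
    rw [fderiv_fun_add hUdiff hVdiff]
    simp only [_root_.add_apply, Pi.add_apply, Finset.sum_add_distrib]
    rw [e1, e2, add_zero]
  · -- initial condition
    intro x
    show Ψ 0 (Φ 0 x) = x
    rw [hΦ0 x]
    exact hΨ0 0 x (by linarith)
  · -- the differential equation
    intro t x
    show HasDerivAt (fun s => Ψ s (Φ s x)) (U (t, Ψ t (Φ t x)) + V (t, Ψ t (Φ t x))) t
    rcases lt_or_ge t (t₀ : ℝ) with ht | ht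
    · -- before `t₀`: `Ψ` is the identity
      have hev : (fun s => Ψ s (Φ s x)) =ᶠ[nhds t] fun s => Φ s x := by
        filter_upwards [Iio_mem_nhds ht] with s hs
        exact hΨ0 s _ (le_of_lt hs)
      have hΨt : Ψ t (Φ t x) = Φ t x := hΨ0 t _ ht.le
      rw [hΨt, hVz (t, Φ t x) (Or.inl ht.le), add_zero]
      exact (hΦd t x).congr_of_eventuallyEq hev
    · -- after `T`: `Φ` is constant
      have hTt : T < t := lt_of_lt_of_le h0 ht
      have hev : (fun s => Ψ s (Φ s x)) =ᶠ[nhds t] fun s => Ψ s (Φ T x) := by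
        filter_upwards [Ioi_mem_nhds hTt] with s hs
        rw [hconst x s (le_of_lt hs)]
      have hΦt : Φ t x = Φ T x := hconst x t hTt.le
      rw [hΦt, hUz (t, Ψ t (Φ T x)) (Or.inr hTt.le), zero_add]
      exact (hΨd t (Φ T x)).congr_of_eventuallyEq hev
  · -- neighbourhoods of the boxes
    intro j
    obtain ⟨O, hO1, hO2, hO3⟩ := hO j
    by_cases hji : j = i
    · subst hji
      refine ⟨O ∩ ((C j) ⁻¹' openCell lo hi ∩
        (fun x => shearMap d α w (C j x)) ⁻¹' openCell lo hi), ?_, ?_, ?_⟩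
      · exact hO1.inter (((isOpen_openCell lo hi).preimage (hC j)).inter
          ((isOpen_openCell lo hi).preimage ((continuous_shearMap d α w).comp (hC j))))
      · intro x hx
        exact ⟨hO2 hx, (hin x hx).1, (hin x hx).2⟩
      · rintro x ⟨hxO, hx1, hx2⟩ t ht
        show Ψ t (Φ t x) = _
        rw [hO3 x hxO t (by linarith), Function.update_self]
        exact hΨin (C j x) hx1 hx2 t ht
    · refine ⟨O ∩ (C j) ⁻¹' (closedCell (fun l => lo l - m) (fun l => hi l + m))ᶜ, ?_, ?_, ?_⟩
      · exact hO1.inter ((isClosed_closedCell _ _).isOpen_compl.preimage (hC j))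
      · intro x hx
        exact ⟨hO2 hx, hout j hji x hx⟩
      · rintro x ⟨hxO, hx1⟩ t ht
        show Ψ t (Φ t x) = _
        rw [hO3 x hxO t (by linarith), Function.update_of_ne hji]
        exact hΨout (C j x) (fun hmem => hx1 (openCell_subset_closedCell _ _ hmem)) t

theorem reach_of_path_of (hz : EffZero) (hmove : MoveLemma) (hadd : EffAdd) (C : Config n)
    (hp : Relation.ReflTransGen (Step a h) (fun _ => id) C) : Reach a h (3 / 4) C := by
  have key : (∀ i, Continuous (C i)) ∧ ∀ T : ℝ, 1 / 4 < T → Reach a h T C := by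
    induction hp with
    | refl => exact ⟨fun _ => continuous_id, fun T _ => reach_refl_of a h hz T⟩
    | tail _ hS ih =>
      obtain ⟨hcont, hreach⟩ := ih
      refine ⟨?_, ?_⟩
      · obtain ⟨i, d, α, w, lo, hi, m, -, -, -, -, -, rfl⟩ := hS
        intro j
        by_cases hji : j = i
        · subst hji
          rw [Function.update_self]
          exact (continuous_shearMap d α w).comp (hcont j)
        · rw [Function.update_of_ne hji]
          exact hcont j
      · intro T hT
        obtain ⟨t₁, ht₁, ht₁T⟩ := exists_rat_btwn hT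
        have hq : (1 / 4 : ℚ) < t₁ := by
          have h4 : ((1 / 4 : ℚ) : ℝ) < (t₁ : ℝ) := by push_cast; exact ht₁
          exact_mod_cast h4
        have h1 : (1 / 4 + t₁) / 2 < t₁ := by linarith
        have hc : (((1 / 4 + t₁) / 2 : ℚ) : ℝ) = (1 / 4 + (t₁ : ℝ)) / 2 := by push_cast; ring
        have hT' : (1 / 4 : ℝ) < (1 / 4 + (1 / 4 + (t₁ : ℝ)) / 2) / 2 := by linarith
        have h0 : (1 / 4 + (1 / 4 + (t₁ : ℝ)) / 2) / 2 < (((1 / 4 + t₁) / 2 : ℚ) : ℝ) := by
          rw [hc]; linarith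
        exact Reach.mono (reach_step_of a h hmove hadd _ _ hcont _ hT'.le _ t₁ h0 h1
          (hreach _ hT') hS) ht₁T.le
  exact key.2 _ (by norm_num)

end reach

end Crest.Agent.Helper11
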