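/-
S0170 team project, WP-B (helper11): the reach lemmas with the inputs of WP-E and WP-A4 plugged in.
Only the move lemma (WP-A7) remains a hypothesis here.
-/
import Crest.Agent.Helper11.BoxFlow.B
import Crest.Agent.Helper78.BoxFlow.E
import Crest.Agent.Helper82.RatComp

set_option autoImplicit false
open scoped ContDiff
open Crest.AnalysisR.BoxFlow Crest.Agent.Helper21

namespace Crest.Agent.Helper11

theorem effZero : EffZero := Crest.Agent.Helper78.effective_zero

theorem effAdd : EffAdd := fun F G hF hG eF eG =>
  Crest.Agent.Helper78.effective_add_of Crest.Agent.Helper82.rat_add F G hF hG eF eG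

section reach
variable {n : ℕ} (a h : Fin n → Fin 3 → ℚ)

/-- `Spec.reach_refl`, verbatim. -/
theorem reach_refl (T : ℝ) : Reach a h T (fun _ => id) := reach_refl_of a h effZero T

/-- `Spec.reach_step` with the move lemma as a hypothesis. -/
theorem reach_step_of_move (hmove : MoveLemma)
    (C C' : Config n) (hC : ∀ i, Continuous (C i)) (T : ℝ) (hT : 1 / 4 ≤ T)
    (t₀ t₁ : ℚ) (h0 : T < (t₀ : ℝ)) (h1 : t₀ < t₁)
    (hR : Reach a h T C) (hS : Step a h C C') : Reach a h (t₁ : ℝ) C' :=
  reach_step_of a h hmove effAdd C C' hC T hT t₀ t₁ h0 h1 hR hS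

/-- `Spec.reach_of_path` with the move lemma as a hypothesis. -/
theorem reach_of_path_of_move (hmove : MoveLemma) (C : Config n)
    (hp : Relation.ReflTransGen (Step a h) (fun _ => id) C) : Reach a h (3 / 4) C :=
  reach_of_path_of a h effZero hmove effAdd C hp

end reach

end Crest.Agent.Helper11
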